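import Mathlib

/-!
# X262/Cvx/Cone0 (helper62): Minkowski–Weyl with integer data (over every ordered field at once),
Gordan's lemma
-/

set_option autoImplicit false
set_option linter.unusedSectionVars false

open Finset

namespace Crest.Agent.X262.Cvx

variable {ι : Type*} [Fintype ι]

section Defs

variable (K : Type*) [Field K] [LinearOrder K] [IsStrictOrderedRing K]

/-- an integer vector as a point over `K` -/
def zc (g : ι → ℤ) : ι → K := fun i => (g i : K)

variable {K} in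
/-- pairing of an integer vector with a point -/
def dot (a : ι → ℤ) (x : ι → K) : K := ∑ i, (a i : K) * x i

/-- cone generated by integer vectors -/
def ConeV (G : Finset (ι → ℤ)) : Set (ι → K) :=
  {x | ∃ t : (ι → ℤ) → K, (∀ g, 0 ≤ t g) ∧ x = ∑ g ∈ G, t g • zc K g}

/-- cone cut out by integer inequalities -/
def ConeH (A : Finset (ι → ℤ)) : Set (ι → K) := {x | ∀ a ∈ A, 0 ≤ dot a x}

variable {K}

@[simp] theorem zc_apply (g : ι → ℤ) (i : ι) : zc K g i = (g i : K) := rfl

theorem zc_add (g h : ι → ℤ) : zc K (g + h) = zc K g + zc K h := by ext i; simp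


theorem zc_zero : zc K (0 : ι → ℤ) = 0 := by ext i; simp


theorem zc_nsmul (n : ℕ) (g : ι → ℤ) : zc K (n • g) = (n : K) • zc K g := by ext i; simp



theorem dot_add (a : ι → ℤ) (x y : ι → K) : dot a (x + y) = dot a x + dot a y := by
  simp [dot, mul_add, sum_add_distrib]

theorem dot_sub (a : ι → ℤ) (x y : ι → K) : dot a (x - y) = dot a x - dot a y := by
  simp [dot, mul_sub, sum_sub_distrib]

theorem dot_smul (a : ι → ℤ) (t : K) (x : ι → K) : dot a (t • x) = t * dot a x := by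
  simp [dot, mul_sum, mul_left_comm]

theorem dot_zero (a : ι → ℤ) : dot a (0 : ι → K) = 0 := by simp [dot]


theorem dot_comm (a b : ι → ℤ) : dot a (zc K b) = dot b (zc K a) := by
  simp [dot, mul_comm]

theorem dot_zc (a b : ι → ℤ) : dot a (zc K b) = ((∑ i, a i * b i : ℤ) : K) := by simp [dot]

theorem dot_comb (p q : ℤ) (a b : ι → ℤ) (x : ι → K) :
    dot (p • a - q • b) x = p * dot a x - q * dot b x := by
  simp only [dot, mul_sum, ← sum_sub_distrib, Pi.sub_apply, Pi.smul_apply, smul_eq_mul]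
  exact sum_congr rfl fun i _ => by push_cast; ring

theorem dot_single [DecidableEq ι] (i : ι) (c : ℤ) (x : ι → K) :
    dot (Pi.single i c) x = c * x i := by
  rw [dot, sum_eq_single i] <;> simp +contextual

/-- the pairing is linear in the first argument, seen as a point -/
theorem dot_of_zc_eq {b : ι → ℤ} {A : Finset (ι → ℤ)} {t : (ι → ℤ) → K}
    (h : zc K b = ∑ a ∈ A, t a • zc K a) (x : ι → K) : dot b x = ∑ a ∈ A, t a * dot a x := by
  have : ∀ i, (b i : K) = ∑ a ∈ A, t a * a i := fun i => by simpa using congrFun h i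
  simp only [dot, this, sum_mul, mul_sum]
  rw [sum_comm]
  exact sum_congr rfl fun a _ => sum_congr rfl fun i _ => by ring

theorem zero_mem_ConeV (G : Finset (ι → ℤ)) : (0 : ι → K) ∈ ConeV K G := ⟨0, by simp, by simp⟩

theorem add_mem_ConeV {G : Finset (ι → ℤ)} {x y : ι → K} (hx : x ∈ ConeV K G)
    (hy : y ∈ ConeV K G) : x + y ∈ ConeV K G := by
  obtain ⟨t, ht, rfl⟩ := hx
  obtain ⟨u, hu, rfl⟩ := hy
  exact ⟨t + u, fun g => add_nonneg (ht g) (hu g), by simp [add_smul, sum_add_distrib]⟩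

theorem smul_mem_ConeV {G : Finset (ι → ℤ)} {x : ι → K} (hx : x ∈ ConeV K G) {c : K} (hc : 0 ≤ c) :
    c • x ∈ ConeV K G := by
  obtain ⟨t, ht, rfl⟩ := hx
  exact ⟨c • t, fun g => mul_nonneg hc (ht g), by simp [smul_sum, smul_smul]⟩

theorem gen_mem_ConeV {G : Finset (ι → ℤ)} {g : ι → ℤ} (hg : g ∈ G) : zc K g ∈ ConeV K G := by
  classical
  refine ⟨Pi.single g 1, fun h => ?_, ?_⟩
  · rw [Pi.single_apply]; split_ifs <;> simp
  · rw [sum_eq_single g] <;> simp +contextual [hg]

theorem sum_mem_ConeV {G : Finset (ι → ℤ)} {α : Type*} (s : Finset α) {x : α → ι → K}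
    (hx : ∀ j ∈ s, x j ∈ ConeV K G) : ∑ j ∈ s, x j ∈ ConeV K G :=
  Finset.sum_induction _ (· ∈ ConeV K G) (fun _ _ => add_mem_ConeV) (zero_mem_ConeV G) hx

/-- a set containing `0`, the generators, closed under sums and non-negative multiples -/
theorem ConeV_subset {G : Finset (ι → ℤ)} {C : Set (ι → K)} (h0 : (0 : ι → K) ∈ C)
    (ha : ∀ x ∈ C, ∀ y ∈ C, x + y ∈ C) (hs : ∀ x ∈ C, ∀ c : K, 0 ≤ c → c • x ∈ C)
    (hg : ∀ g ∈ G, zc K g ∈ C) : ConeV K G ⊆ C := by
  rintro _ ⟨t, ht, rfl⟩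
  exact Finset.sum_induction _ (· ∈ C) (fun a b => fun h1 h2 => ha a h1 b h2) h0
    fun g h => hs _ (hg g h) _ (ht g)

theorem zero_mem_ConeH (A : Finset (ι → ℤ)) : (0 : ι → K) ∈ ConeH K A := fun a _ => by
  rw [dot_zero]

theorem add_mem_ConeH {A : Finset (ι → ℤ)} {x y : ι → K} (hx : x ∈ ConeH K A)
    (hy : y ∈ ConeH K A) : x + y ∈ ConeH K A := fun a ha => by
  rw [dot_add]; exact add_nonneg (hx a ha) (hy a ha)

theorem smul_mem_ConeH {A : Finset (ι → ℤ)} {x : ι → K} (hx : x ∈ ConeH K A) {c : K} (hc : 0 ≤ c) :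
    c • x ∈ ConeH K A := fun a ha => by
  rw [dot_smul]; exact mul_nonneg hc (hx a ha)

theorem ConeV_subset_ConeH {G A : Finset (ι → ℤ)} (h : ∀ g ∈ G, zc K g ∈ ConeH K A) :
    ConeV K G ⊆ ConeH K A :=
  ConeV_subset (zero_mem_ConeH A) (fun _ hx _ hy => add_mem_ConeH hx hy)
    (fun _ hx _ hc => smul_mem_ConeH hx hc) h

theorem mem_ConeV_insert [DecidableEq ι] {G : Finset (ι → ℤ)} {v : ι → ℤ} {x : ι → K} :
    x ∈ ConeV K (insert v G) ↔ ∃ t : K, 0 ≤ t ∧ x - t • zc K v ∈ ConeV K G := by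
  constructor
  · intro hx
    refine ConeV_subset (C := {x | ∃ t : K, 0 ≤ t ∧ x - t • zc K v ∈ ConeV K G}) ?_ ?_ ?_ ?_ hx
    · exact ⟨0, le_rfl, by simpa using zero_mem_ConeV G⟩
    · rintro x ⟨t, ht, hx⟩ y ⟨u, hu, hy⟩
      refine ⟨t + u, add_nonneg ht hu, ?_⟩
      convert add_mem_ConeV hx hy using 1
      rw [add_smul]; abel
    · rintro x ⟨t, ht, hx⟩ c hc
      refine ⟨c * t, mul_nonneg hc ht, ?_⟩
      convert smul_mem_ConeV hx hc using 1
      rw [smul_sub, smul_smul]
    · intro g hg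
      rcases mem_insert.1 hg with rfl | hg
      · exact ⟨1, zero_le_one, by simpa using zero_mem_ConeV G⟩
      · exact ⟨0, le_rfl, by simpa using gen_mem_ConeV hg⟩
  · rintro ⟨t, ht, hx⟩
    have h1 : x - t • zc K v ∈ ConeV K (insert v G) :=
      ConeV_subset (zero_mem_ConeV _) (fun _ hx _ hy => add_mem_ConeV hx hy)
        (fun _ hx _ hc => smul_mem_ConeV hx hc) (fun g hg => gen_mem_ConeV (mem_insert_of_mem hg)) hx
    simpa using add_mem_ConeV h1 (smul_mem_ConeV (gen_mem_ConeV (mem_insert_self v G)) ht)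

end Defs

/-- integer pairing -/
def zdot (a v : ι → ℤ) : ℤ := ∑ i, a i * v i

/-- Fourier–Motzkin step -/
noncomputable def fm (A : Finset (ι → ℤ)) (v : ι → ℤ) : Finset (ι → ℤ) := by
  classical
  exact A.filter (fun a => 0 ≤ zdot a v) ∪
    ((A.filter fun a => 0 < zdot a v) ×ˢ (A.filter fun b => zdot b v < 0)).image
      fun p => zdot p.1 v • p.2 - zdot p.2 v • p.1

theorem mem_fm {K : Type*} [Field K] [LinearOrder K] [IsStrictOrderedRing K]
    (A : Finset (ι → ℤ)) (v : ι → ℤ) (x : ι → K) :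
    x ∈ ConeH K (fm A v) ↔ ∃ t : K, 0 ≤ t ∧ x - t • zc K v ∈ ConeH K A := by
  classical
  have hz : ∀ a, dot a (zc K v) = (zdot a v : K) := fun a => dot_zc a v
  have hm : x ∈ ConeH K (fm A v) ↔ (∀ a ∈ A, 0 ≤ zdot a v → 0 ≤ dot a x) ∧
      ∀ a ∈ A, 0 < zdot a v → ∀ b ∈ A, zdot b v < 0 →
        0 ≤ (zdot a v : K) * dot b x - (zdot b v : K) * dot a x := by
    simp only [ConeH, fm, Set.mem_ofPred_eq, mem_union, mem_filter, mem_image, mem_product]
    constructor
    · intro h
      refine ⟨fun a ha h0 => h a (Or.inl ⟨ha, h0⟩), fun a ha h0 b hb h1 => ?_⟩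
      rw [← dot_comb]
      exact h _ (Or.inr ⟨(a, b), ⟨⟨ha, h0⟩, hb, h1⟩, rfl⟩)
    · rintro ⟨h1, h2⟩ c (⟨hc, h0⟩ | ⟨⟨a, b⟩, ⟨⟨ha, h0⟩, hb, h3⟩, rfl⟩)
      · exact h1 c hc h0
      · rw [dot_comb]; exact h2 a ha h0 b hb h3
  rw [hm]
  constructor
  · rintro ⟨h1, h2⟩
    let B := A.filter fun b => zdot b v < 0
    let T : Finset K := insert 0 (B.image fun b => dot b x / zdot b v)
    have hT : T.Nonempty := ⟨0, mem_insert_self _ _⟩
    refine ⟨T.max' hT, le_max' _ _ (mem_insert_self _ _), fun a ha => ?_⟩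
    rw [dot_sub, dot_smul, hz]
    rcases lt_trichotomy (zdot a v) 0 with hl | he | hg
    · have hl' : (zdot a v : K) < 0 := by exact_mod_cast hl
      have : dot a x / zdot a v ≤ T.max' hT :=
        le_max' T _ (mem_insert_of_mem (mem_image.2 ⟨a, mem_filter.2 ⟨ha, hl⟩, rfl⟩))
      rw [div_le_iff_of_neg hl'] at this
      linarith
    · simpa [he] using h1 a ha he.ge
    · have hg' : (0 : K) < zdot a v := by exact_mod_cast hg
      have : T.max' hT ≤ dot a x / zdot a v := by
        refine max'_le _ _ _ fun y hy => ?_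
        rcases mem_insert.1 hy with rfl | hy
        · exact div_nonneg (h1 a ha hg.le) hg'.le
        · obtain ⟨b, hb, rfl⟩ := mem_image.1 hy
          obtain ⟨hb, hb'⟩ := mem_filter.1 hb
          have hl' : (zdot b v : K) < 0 := by exact_mod_cast hb'
          have := h2 a ha hg b hb hb'
          rw [div_le_iff_of_neg hl', div_mul_eq_mul_div, div_le_iff₀ hg']
          linarith
      rw [le_div_iff₀ hg'] at this
      linarith
  · rintro ⟨t, ht, h⟩
    have h' : ∀ a ∈ A, t * zdot a v ≤ dot a x := fun a ha => by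
      have := h a ha
      rw [dot_sub, dot_smul, hz] at this
      linarith
    refine ⟨fun a ha h0 => le_trans (mul_nonneg ht (by exact_mod_cast h0)) (h' a ha),
      fun a ha h0 b hb h1 => ?_⟩
    have hg' : (0 : K) < zdot a v := by exact_mod_cast h0
    have hl' : (zdot b v : K) < 0 := by exact_mod_cast h1
    nlinarith [h' a ha, h' b hb, mul_le_mul_of_nonneg_left (h' b hb) hg'.le,
      mul_le_mul_of_nonneg_left (h' a ha) (neg_nonneg.2 hl'.le)]

/-- Weyl: a finitely generated cone is cut out by finitely many inequalities -/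
theorem exists_H (G : Finset (ι → ℤ)) : ∃ A : Finset (ι → ℤ),
    ∀ (K : Type) [Field K] [LinearOrder K] [IsStrictOrderedRing K], ConeV K G = ConeH K A := by
  classical
  induction G using Finset.induction_on with
  | empty =>
    refine ⟨(univ.image fun i => Pi.single i 1) ∪ (univ.image fun i => Pi.single i (-1)),
      fun K _ _ _ => ?_⟩
    ext x
    constructor
    · rintro ⟨t, -, rfl⟩
      simpa using zero_mem_ConeH (K := K) _
    · intro h
      refine ⟨0, by simp, ?_⟩
      ext i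
      have h1 := h (Pi.single i 1) (mem_union_left _ (mem_image.2 ⟨i, mem_univ _, rfl⟩))
      have h2 := h (Pi.single i (-1)) (mem_union_right _ (mem_image.2 ⟨i, mem_univ _, rfl⟩))
      rw [dot_single] at h1 h2
      simp only [sum_empty, Pi.zero_apply]
      push_cast at h1 h2
      linarith
  | insert v G _ ih =>
    obtain ⟨A, hA⟩ := ih
    refine ⟨fm A v, fun K _ _ _ => ?_⟩
    ext x
    rw [mem_ConeV_insert, mem_fm, hA]

/-- Minkowski: a cone cut out by finitely many inequalities is finitely generated -/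
theorem exists_V (A : Finset (ι → ℤ)) : ∃ G : Finset (ι → ℤ),
    ∀ (K : Type) [Field K] [LinearOrder K] [IsStrictOrderedRing K], ConeH K A = ConeV K G := by
  obtain ⟨G, hG⟩ := exists_H A
  obtain ⟨B, hB⟩ := exists_H G
  refine ⟨G, fun K _ _ _ => Set.Subset.antisymm (fun x hx => ?_) (ConeV_subset_ConeH ?_)⟩
  · rw [hB]
    intro b hb
    have : zc K b ∈ ConeV K A := by
      rw [hG]
      intro g hg
      rw [dot_comm]
      exact (hB K ▸ gen_mem_ConeV hg : zc K g ∈ ConeH K B) b hb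
    obtain ⟨t, ht, e⟩ := this
    rw [dot_of_zc_eq e]
    exact sum_nonneg fun a ha => mul_nonneg (ht a) (hx a ha)
  · intro g hg a ha
    rw [dot_comm]
    exact (hG K ▸ gen_mem_ConeV ha : zc K a ∈ ConeH K G) g hg


/-- Gordan's lemma, inequality form -/
theorem gordan_H (A : Finset (ι → ℤ)) (S : AddSubmonoid (ι → ℤ))
    (hS : ∀ z, z ∈ S ↔ ∀ a ∈ A, 0 ≤ zdot a z) : S.FG := by
  classical
  let P : (ι ⊕ ι ⊕ A → ℕ) →+ (ι → ℤ) :=
    { toFun := fun c i => (c (.inl i) : ℤ) - c (.inr (.inl i))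
      map_zero' := by ext; simp
      map_add' := by intro a b; ext; simp; ring }
  let Q : (ι → ℤ) →+ (A → ℤ) :=
    { toFun := fun z a => zdot a z
      map_zero' := by ext; simp [zdot]
      map_add' := by intro a b; ext; simp [zdot, mul_add, sum_add_distrib] }
  let R : (ι ⊕ ι ⊕ A → ℕ) →+ (A → ℤ) :=
    { toFun := fun c a => (c (.inr (.inr a)) : ℤ)
      map_zero' := by ext; simp
      map_add' := by intro a b; ext; simp }
  have h := (AddSubmonoid.fg_eqLocusM (Q.comp P) R).map P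
  convert h
  ext z
  rw [hS, AddSubmonoid.mem_map]
  constructor
  · intro hz
    have hP : P (Sum.elim (fun i => (z i).toNat) (Sum.elim (fun i => (-z i).toNat)
        fun a : A => (zdot a z).toNat)) = z := by
      ext i; simp [P]
    refine ⟨_, ?_, hP⟩
    change Q (P _) = R _
    rw [hP]
    ext a
    simp [Q, R, hz a a.2]
  · rintro ⟨c, hc, rfl⟩ a ha
    have : Q (P c) ⟨a, ha⟩ = R c ⟨a, ha⟩ := congrFun hc ⟨a, ha⟩
    change zdot a (P c) = (c _ : ℤ) at this
    rw [this]
    exact Int.natCast_nonneg _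

end Crest.Agent.X262.Cvx
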