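import Crest.Agent.X262.Cvx.Gr0

/-!
# X262/Cvx/Gr1 (helper62): Veronese lemma, twisting by units, generation by a filtration
(Cascini–Lazić 2.25 (2), 2.26, 6.1 in abstract form)
-/

set_option autoImplicit false
set_option linter.unusedSectionVars false

open Finset

namespace Crest.Agent.X262.Cvx.Gr

variable {k F Λ : Type*} [Field k] [CommRing F] [Algebra k F] [AddCommMonoid Λ]

section Ring

variable {N : Λ → Submodule k F}

theorem single_mem_aux (N : Λ → Submodule k F) {s : Λ} {g : F} (hg : g ∈ N s) (t : Λ) :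
    (AddMonoidAlgebra.single s g).coeff t ∈ N t := by
  classical
  rw [AddMonoidAlgebra.coeff_single, Finsupp.single_apply]
  split_ifs with h
  · exact h ▸ hg
  · exact zero_mem _

/-- the graded ring of a multiplicative family inside `F[Λ]` -/
def ring (hN : Mult N ⊤) : Subalgebra k (AddMonoidAlgebra F Λ) where
  carrier := {y | ∀ s, y.coeff s ∈ N s}
  mul_mem' := by
    classical
    intro y z hy hz s
    rw [AddMonoidAlgebra.mul_def]
    simp only [Finsupp.sum, AddMonoidAlgebra.coeff_sum, Finsupp.finsetSum_apply]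
    refine Submodule.sum_mem _ fun a _ => Submodule.sum_mem _ fun b _ => ?_
    exact single_mem_aux N (hN.mul a trivial b trivial _ (hy a) _ (hz b)) s
  add_mem' := by
    intro y z hy hz s
    exact add_mem (hy s) (hz s)
  algebraMap_mem' := by
    intro c s
    rw [AddMonoidAlgebra.coe_algebraMap]
    refine single_mem_aux N ?_ s
    rw [Algebra.algebraMap_eq_smul_one]
    exact Submodule.smul_mem _ _ hN.one


theorem single_mem_ring (hN : Mult N ⊤) {s : Λ} {g : F} :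
    AddMonoidAlgebra.single s g ∈ ring hN ↔ g ∈ N s :=
  ⟨fun h => by simpa using h s, fun h => single_mem_aux N h⟩

theorem single_mem_adjoin {ι : Type*} [Fintype ι] (d : ι → Λ) (f : ι → F) {s : Λ} {g : F}
    (hg : g ∈ Mon k d f s) : AddMonoidAlgebra.single s g ∈
      Algebra.adjoin k (Set.range fun j => AddMonoidAlgebra.single (d j) (f j)) := by
  induction hg using Submodule.span_induction with
  | mem x hx =>
    obtain ⟨a, rfl, rfl⟩ := hx
    rw [← AddMonoidAlgebra.prod_single]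
    refine Subalgebra.prod_mem _ fun j _ => ?_
    rw [← AddMonoidAlgebra.single_pow]
    exact Subalgebra.pow_mem _ (Algebra.subset_adjoin (Set.mem_range_self (f := fun j =>
      AddMonoidAlgebra.single (d j) (f j)) j)) _
  | zero => simp
  | add x y _ _ hx hy => rw [AddMonoidAlgebra.single_add]; exact add_mem hx hy
  | smul c x _ hx => rw [← AddMonoidAlgebra.smul_single]; exact Subalgebra.smul_mem _ hx c

end Ring

section Veronese

variable {M : Λ → Submodule k F} {S S' : AddSubmonoid Λ}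

/-- one coset of a Veronese subring is a finite module -/
theorem coset_finite [IsDomain F] [IsCancelAdd Λ] (hM : Mult M S) (hle : S' ≤ S)
    {n : ℕ} (d : Fin n → Λ) (f : Fin n → F)
    (h : ∀ s ∈ S', M s ≤ Mon k d f s) {c : Λ} (hc : c ∈ S) {r : ℕ} (hr : (r + 1) • c ∈ S') :
    ∃ T : Set (Λ × F), T.Finite ∧ (∀ p ∈ T, p.1 ∈ S ∧ p.2 ∈ M p.1) ∧
      ∀ N : Λ → Submodule k F, Mult N ⊤ → (∀ j, f j ∈ N (d j)) → (∀ p ∈ T, p.2 ∈ N p.1) →
        ∀ t ∈ S', M (c + t) ≤ N (c + t) := by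
  classical
  by_cases h0 : ∀ t ∈ S', M (c + t) = ⊥
  · exact ⟨∅, Set.finite_empty, by simp, fun N _ _ _ t ht => by rw [h0 t ht]; exact bot_le⟩
  push Not at h0
  obtain ⟨t0, ht0, hne⟩ := h0
  obtain ⟨g0, hg0, hg0ne⟩ := Submodule.exists_mem_ne_zero_of_ne_bot hne
  let A := AddMonoidAlgebra F Λ
  let R : Subalgebra k A := Algebra.adjoin k (Set.range fun j => AddMonoidAlgebra.single (d j) (f j))
  have hR : R.FG := Subalgebra.fg_def.2 ⟨_, Set.finite_range _, rfl⟩
  have : IsNoetherianRing R := isNoetherianRing_of_fg hR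
  let G : Set A := {y | ∃ t ∈ S', ∃ g ∈ M (c + t), y = AddMonoidAlgebra.single (c + t) g}
  let u : A := AddMonoidAlgebra.single (r • (c + t0)) (g0 ^ r)
  let μ : A →ₗ[R] A := LinearMap.mulLeft R u
  have hμ : Function.Injective μ := by
    rw [injective_iff_map_eq_zero]
    intro y hy
    ext s
    have := congrArg (fun z : A => z.coeff (r • (c + t0) + s)) hy
    simp only [μ, u, LinearMap.mulLeft_apply] at this
    rw [AddMonoidAlgebra.coeff_single_mul_add] at this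
    simpa [hg0ne] using this
  have hle1 : (Submodule.span R G).map μ ≤ Submodule.span R {(1 : A)} := by
    rw [Submodule.map_span_le]
    rintro _ ⟨t, ht, g, hg, rfl⟩
    have hmem : u * AddMonoidAlgebra.single (c + t) g ∈ R := by
      have e : u * AddMonoidAlgebra.single (c + t) g =
          AddMonoidAlgebra.single (r • (c + t0) + (c + t)) (g0 ^ r * g) :=
        AddMonoidAlgebra.single_mul_single _ _ _ _
      rw [e]
      refine single_mem_adjoin d f (h _ ?_ ?_)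
      · have : r • (c + t0) + (c + t) = (r + 1) • c + (r • t0 + t) := by
          rw [smul_add, succ_nsmul]; abel
        rw [this]
        exact add_mem hr (add_mem (S'.nsmul_mem ht0 r) ht)
      · exact hM.mul _ (S.nsmul_mem (add_mem hc (hle ht0)) r) _ (add_mem hc (hle ht)) _
          (hM.pow (add_mem hc (hle ht0)) hg0 r) _ hg
    exact Submodule.mem_span_singleton.2 ⟨⟨_, hmem⟩, by simp [μ, Algebra.smul_def]⟩
  have hfg1 : (Submodule.span R {(1 : A)}).FG := Submodule.fg_span (Set.finite_singleton _)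
  have hfg : (Submodule.span R G).FG :=
    Submodule.fg_of_fg_map_injective μ hμ (Submodule.FG.of_le hfg1 hle1)
  obtain ⟨G', hG', hsp⟩ := (Submodule.fg_span_iff_fg_span_finset_subset G).1 hfg
  choose! t ht g hg he using fun y (hy : y ∈ G') => hG' hy
  refine ⟨(fun y => (c + t y, g y)) '' G', G'.finite_toSet.image _, ?_, ?_⟩
  · rintro _ ⟨y, hy, rfl⟩
    exact ⟨add_mem hc (hle (ht y hy)), hg y hy⟩
  · intro N hN hf hT s hs x hx
    have hRN : R ≤ ring hN := by
      refine Algebra.adjoin_le ?_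
      rintro _ ⟨j, rfl⟩
      exact (single_mem_ring hN).2 (hf j)
    have hx' : AddMonoidAlgebra.single (c + s) x ∈ Submodule.span R (G' : Set A) := by
      rw [← hsp]
      exact Submodule.subset_span ⟨s, hs, x, hx, rfl⟩
    refine (single_mem_ring hN).1 ?_
    have key : ∀ y ∈ Submodule.span R (G' : Set A), y ∈ ring hN := by
      intro y hy
      induction hy using Submodule.span_induction with
      | mem y hy =>
        rw [he y hy]
        exact (single_mem_ring hN).2 (hT _ ⟨y, hy, rfl⟩)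
      | zero => exact zero_mem _
      | add y z _ _ hy hz => exact add_mem hy hz
      | smul a y _ hy => exact mul_mem (hRN a.2) hy
    exact key _ hx'

/-- Veronese lemma (CL 2.25 (2)): a sub-family of finite index -/
theorem FG.of_veronese [IsDomain F] [IsCancelAdd Λ] (hM : Mult M S) (hS : S.FG) (hle : S' ≤ S)
    (hn : ∀ s ∈ S, ∃ r : ℕ, 0 < r ∧ r • s ∈ S') (h : FG M S') : FG M S := by
  classical
  obtain ⟨n, d, f, hd, h⟩ := h
  obtain ⟨G, hG⟩ := hS
  have hGS : ∀ g ∈ G, g ∈ S := fun g hg => hG ▸ AddSubmonoid.subset_closure hg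
  choose! r hr0 hr using hn
  -- the finitely many residues
  let C : Finset (G → ℕ) := Fintype.piFinset fun g : G => range (r g)
  let c : (G → ℕ) → Λ := fun b => ∑ g : G, b g • (g : Λ)
  have hcS : ∀ b, c b ∈ S := fun b => S.sum_mem fun g _ => S.nsmul_mem (hGS g g.2) _
  have hex : ∀ b : G → ℕ, ∃ T : Set (Λ × F), T.Finite ∧ (∀ p ∈ T, p.1 ∈ S ∧ p.2 ∈ M p.1) ∧
      ∀ N : Λ → Submodule k F, Mult N ⊤ → (∀ j, f j ∈ N (d j)) → (∀ p ∈ T, p.2 ∈ N p.1) →
        ∀ t ∈ S', M (c b + t) ≤ N (c b + t) := fun b =>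
    coset_finite hM hle d f h (hcS b) (r := r (c b) - 1) (by
      rw [Nat.sub_add_cancel (hr0 _ (hcS b))]; exact hr _ (hcS b))
  choose T hT hTm hTN using hex
  refine FG.of_finite (T := (Set.range fun j => (d j, f j)) ∪ ⋃ b ∈ C, T b)
    ((Set.finite_range _).union (C.finite_toSet.biUnion fun b _ => hT b)) ?_ ?_
  · rintro p (⟨j, rfl⟩ | hp)
    · exact ⟨hle (hd j).1, (hd j).2⟩
    · obtain ⟨b, -, hb⟩ := Set.mem_iUnion₂.1 hp
      exact hTm b p hb
  · intro N hN hg s hs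
    have hs' : s ∈ AddSubmonoid.closure (G : Set Λ) := hG ▸ hs
    obtain ⟨b, hb⟩ : ∃ b : G → ℕ, ∑ g : G, b g • (g : Λ) = s := by
      rw [AddSubmonoid.mem_closure_finset] at hs'
      obtain ⟨b, -, hb⟩ := hs'
      exact ⟨fun g => b g, by rw [← hb, Finset.sum_coe_sort G fun g => b g • g]⟩
    let b0 : G → ℕ := fun g => b g % r g
    have hb0 : b0 ∈ C := Fintype.mem_piFinset.2 fun g =>
      mem_range.2 (Nat.mod_lt _ (hr0 _ (hGS g g.2)))
    have hs2 : s = c b0 + ∑ g : G, (b g / r g) • (r g • (g : Λ)) := by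
      rw [← hb, ← sum_add_distrib]
      refine sum_congr rfl fun g _ => ?_
      rw [smul_smul, ← add_smul, Nat.mod_add_div']
    rw [hs2]
    refine hTN b0 N hN (fun j => hg _ (Or.inl ⟨j, rfl⟩))
      (fun p hp => hg p (Or.inr (Set.mem_iUnion₂.2 ⟨b0, hb0, hp⟩))) _ ?_
    exact S'.sum_mem fun g _ => S'.nsmul_mem (hr _ (hGS g g.2)) _

/-- Veronese lemma along a monoid map whose image has finite index -/
theorem FG.of_veronese_comap [IsDomain F] [IsCancelAdd Λ] {Λ' : Type*} [AddCommMonoid Λ']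
    (hM : Mult M S) (hS : S.FG) (φ : Λ' →+ Λ) {T : AddSubmonoid Λ'} (h1 : ∀ t ∈ T, φ t ∈ S)
    (hn : ∀ s ∈ S, ∃ r : ℕ, 0 < r ∧ ∃ t ∈ T, φ t = r • s) (h : FG (fun t => M (φ t)) T) :
    FG M S := by
  refine FG.of_veronese (S' := T.map φ) hM hS ?_ ?_ ?_
  · rintro _ ⟨t, ht, rfl⟩; exact h1 t ht
  · intro s hs
    obtain ⟨r, hr, t, ht, e⟩ := hn s hs
    exact ⟨r, hr, t, ht, e⟩
  · refine FG.of_comap φ (fun t ht => ⟨t, ht, rfl⟩) ?_ h
    rintro _ ⟨t, ht, rfl⟩
    exact Or.inr ⟨t, ht, rfl⟩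

/-- the `r`-th Veronese -/
theorem FG.of_nsmul [IsDomain F] [IsCancelAdd Λ] (hM : Mult M S) (hS : S.FG) {r : ℕ} (hr : 0 < r)
    (h : FG (fun s => M (r • s)) S) : FG M S :=
  FG.of_veronese_comap hM hS (nsmulAddMonoidHom r) (fun _ ht => S.nsmul_mem ht r)
    (fun s hs => ⟨r, hr, s, hs, rfl⟩) h

end Veronese

section Transport

variable {F' : Type*} [CommRing F'] [Algebra k F'] {S : AddSubmonoid Λ}

/-- A degree-wise multiplicative linear map `ρ` (restriction to a divisor, twist by units,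
pull-back of functions ...) between two families. -/
structure Hom (M : Λ → Submodule k F) (S : AddSubmonoid Λ) (ρ : Λ → F → F') : Prop where
  one : ρ 0 1 = 1
  add : ∀ s ∈ S, ∀ f ∈ M s, ∀ g ∈ M s, ρ s (f + g) = ρ s f + ρ s g
  smul : ∀ s ∈ S, ∀ c : k, ∀ f ∈ M s, ρ s (c • f) = c • ρ s f
  mul : ∀ s ∈ S, ∀ t ∈ S, ∀ f ∈ M s, ∀ g ∈ M t, ρ (s + t) (f * g) = ρ s f * ρ t g

variable {M : Λ → Submodule k F} {ρ : Λ → F → F'}

theorem Hom.zero (h : Hom M S ρ) {s : Λ} (hs : s ∈ S) : ρ s 0 = 0 := by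
  simpa using h.smul s hs 0 0 (zero_mem _)

theorem Hom.sub (h : Hom M S ρ) {s : Λ} (hs : s ∈ S) {f g : F} (hf : f ∈ M s) (hg : g ∈ M s) :
    ρ s (f - g) = ρ s f - ρ s g := by
  have := h.add s hs (f - g) (sub_mem hf hg) g hg
  rw [sub_add_cancel] at this
  rw [this, add_sub_cancel_right]

theorem Hom.prod (h : Hom M S ρ) (hM : Mult M S) {α : Type*} (t : Finset α) (d : α → Λ) (f : α → F)
    (hd : ∀ j ∈ t, d j ∈ S ∧ f j ∈ M (d j)) :
    ρ (∑ j ∈ t, d j) (∏ j ∈ t, f j) = ∏ j ∈ t, ρ (d j) (f j) := by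
  classical
  induction t using Finset.induction_on with
  | empty => simpa using h.one
  | insert a t ha ih =>
    have hd' : ∀ j ∈ t, d j ∈ S ∧ f j ∈ M (d j) := fun j hj => hd j (mem_insert_of_mem hj)
    rw [prod_insert ha, sum_insert ha, prod_insert ha, h.mul _ (hd a (mem_insert_self _ _)).1 _
      (S.sum_mem fun j hj => (hd' j hj).1) _ (hd a (mem_insert_self _ _)).2 _ (hM.prod t d f hd'),
      ih hd']

theorem Hom.pow (h : Hom M S ρ) (hM : Mult M S) {a : Λ} (ha : a ∈ S) {f : F} (hf : f ∈ M a)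
    (n : ℕ) : ρ (n • a) (f ^ n) = ρ a f ^ n := by
  simpa using h.prod hM (range n) (fun _ => a) (fun _ => f) fun _ _ => ⟨ha, hf⟩

/-- every element of `Mon` of the images lifts to an element of `Mon` -/
theorem Hom.lift_Mon (h : Hom M S ρ) (hM : Mult M S) {ι : Type*} [Fintype ι] {d : ι → Λ}
    {f : ι → F} (hd : ∀ j, d j ∈ S ∧ f j ∈ M (d j)) {s : Λ} (hs : s ∈ S) {y : F'}
    (hy : y ∈ Mon k d (fun j => ρ (d j) (f j)) s) : ∃ x ∈ Mon k d f s, ρ s x = y := by
  induction hy using Submodule.span_induction with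
  | mem y hy =>
    obtain ⟨a, ha, rfl⟩ := hy
    refine ⟨_, mono_mem_Mon d f a ha, ?_⟩
    rw [← ha, h.prod hM _ _ _ fun j _ => ⟨S.nsmul_mem (hd j).1 _, hM.pow (hd j).1 (hd j).2 _⟩]
    exact prod_congr rfl fun j _ => h.pow hM (hd j).1 (hd j).2 _
  | zero => exact ⟨0, zero_mem _, h.zero hs⟩
  | add y z _ _ hy hz =>
    obtain ⟨x, hx, rfl⟩ := hy
    obtain ⟨x', hx', rfl⟩ := hz
    exact ⟨x + x', add_mem hx hx', h.add s hs _ (hM.Mon_le hd s hx) _ (hM.Mon_le hd s hx')⟩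
  | smul c y _ hy =>
    obtain ⟨x, hx, rfl⟩ := hy
    exact ⟨c • x, Submodule.smul_mem _ _ hx, h.smul s hs c _ (hM.Mon_le hd s hx)⟩

theorem Hom.map_Mon (h : Hom M S ρ) (hM : Mult M S) {ι : Type*} [Fintype ι] {d : ι → Λ}
    {f : ι → F} (hd : ∀ j, d j ∈ S ∧ f j ∈ M (d j)) {s : Λ} (hs : s ∈ S) {x : F}
    (hx : x ∈ Mon k d f s) : ρ s x ∈ Mon k d (fun j => ρ (d j) (f j)) s := by
  induction hx using Submodule.span_induction with
  | mem y hy =>
    obtain ⟨a, ha, rfl⟩ := hy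
    rw [← ha, h.prod hM _ _ _ fun j _ => ⟨S.nsmul_mem (hd j).1 _, hM.pow (hd j).1 (hd j).2 _⟩,
      prod_congr rfl fun j _ => h.pow hM (hd j).1 (hd j).2 _]
    exact mono_mem_Mon _ _ a rfl
  | zero => rw [h.zero hs]; exact zero_mem _
  | add y z hy' hz' hy hz =>
    rw [h.add s hs _ (hM.Mon_le hd s hy') _ (hM.Mon_le hd s hz')]
    exact add_mem hy hz
  | smul c y hy' hy =>
    rw [h.smul s hs c _ (hM.Mon_le hd s hy')]
    exact Submodule.smul_mem _ _ hy

/-- the image family of a finitely generated family is finitely generated -/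
theorem FG.image (h : Hom M S ρ) (hM : Mult M S) (hF : FG M S) {M' : Λ → Submodule k F'}
    (hM' : ∀ s ∈ S, ∀ y, y ∈ M' s ↔ ∃ x ∈ M s, ρ s x = y) : FG M' S := by
  obtain ⟨n, d, f, hd, hF⟩ := hF
  refine ⟨n, d, fun j => ρ (d j) (f j), fun j => ⟨(hd j).1, (hM' _ (hd j).1 _).2 ⟨_, (hd j).2, rfl⟩⟩,
    fun s hs y hy => ?_⟩
  obtain ⟨x, hx, rfl⟩ := (hM' s hs y).1 hy
  exact h.map_Mon hM hd hs (hF s hs hx)

/-- generators of the image family lift to generators modulo the kernel -/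
theorem FG.lift (h : Hom M S ρ) (hM : Mult M S) {M' : Λ → Submodule k F'}
    (hM' : ∀ s ∈ S, ∀ y, y ∈ M' s ↔ ∃ x ∈ M s, ρ s x = y) (hF : FG M' S) :
    ∃ (n : ℕ) (d : Fin n → Λ) (f : Fin n → F), (∀ j, d j ∈ S ∧ f j ∈ M (d j)) ∧
      ∀ s ∈ S, ∀ x ∈ M s, ∃ x' ∈ Mon k d f s, x - x' ∈ M s ∧ ρ s (x - x') = 0 := by
  obtain ⟨n, d, f', hd, hF⟩ := hF
  choose f hf hρ using fun j => (hM' _ (hd j).1 _).1 (hd j).2
  have hd' : ∀ j, d j ∈ S ∧ f j ∈ M (d j) := fun j => ⟨(hd j).1, hf j⟩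
  refine ⟨n, d, f, hd', fun s hs x hx => ?_⟩
  have hy : ρ s x ∈ Mon k d (fun j => ρ (d j) (f j)) s := by
    rw [funext hρ]
    exact hF s hs ((hM' s hs _).2 ⟨x, hx, rfl⟩)
  obtain ⟨x', hx', e⟩ := h.lift_Mon hM hd' hs hy
  have hx'' := hM.Mon_le hd' s hx'
  exact ⟨x', hx', sub_mem hx hx'', by rw [h.sub hs hx hx'', e, sub_self]⟩

/-- an injective `Hom` reflects finite generation -/
theorem FG.of_image (h : Hom M S ρ) (hM : Mult M S) {M' : Λ → Submodule k F'}
    (hM' : ∀ s ∈ S, ∀ y, y ∈ M' s ↔ ∃ x ∈ M s, ρ s x = y)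
    (hinj : ∀ s ∈ S, ∀ x ∈ M s, ρ s x = 0 → x = 0) (hF : FG M' S) : FG M S := by
  obtain ⟨n, d, f, hd, hF⟩ := hF.lift h hM hM'
  refine ⟨n, d, f, hd, fun s hs x hx => ?_⟩
  obtain ⟨x', hx', h1, h2⟩ := hF s hs x hx
  rwa [sub_eq_zero.1 (hinj s hs _ h1 h2)]

/-- twisting by a multiplicative system `u` (linear equivalence of divisors, CL 2.26) -/
theorem hom_twist (M : Λ → Submodule k F) (S : AddSubmonoid Λ) (α : F →ₐ[k] F') (u : Λ → F')
    (h0 : u 0 = 1) (hu : ∀ s ∈ S, ∀ t ∈ S, u (s + t) = u s * u t) :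
    Hom M S fun s x => u s * α x where
  one := by simp [h0]
  add := by intro s _ f _ g _; simp [mul_add]
  smul := by intro s _ c f _; simp
  mul := by intro s hs t ht f _ g _; rw [hu s hs t ht, map_mul]; ring

theorem FG.twist_iff [IsDomain F'] (hM : Mult M S) (α : F →ₐ[k] F') (hα : Function.Injective α)
    (u : Λ → F') (h0 : u 0 = 1) (hu : ∀ s ∈ S, ∀ t ∈ S, u (s + t) = u s * u t)
    (hne : ∀ s ∈ S, u s ≠ 0) {M' : Λ → Submodule k F'}
    (hM' : ∀ s ∈ S, ∀ y, y ∈ M' s ↔ ∃ x ∈ M s, u s * α x = y) : FG M S ↔ FG M' S :=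
  ⟨fun h => FG.image (hom_twist M S α u h0 hu) hM h hM',
   fun h => FG.of_image (hom_twist M S α u h0 hu) hM hM' (fun s hs x _ hx =>
    hα (by simpa [hne s hs] using hx)) h⟩

end Transport

section Filtration

variable {M : Λ → Submodule k F} {S S₀ : AddSubmonoid Λ}

/-- CL Lemma 6.1.  `S₀ ⊇ S` carries the family and the extra sections `σ j` of degree `e j`;
`deg` is a height with finite sublevel sets on `S`.  If above height `c` every element of degree
`s` is, modulo finitely many fixed generators, a multiple of some `σ j` by an element of a smaller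
degree in `S`, then the ring over `S` is finitely generated. -/
theorem FG.of_filtration [IsCancelAdd Λ] (hM : Mult M S₀) (hle : S ≤ S₀) (hS : S.FG)
    (deg : Λ → ℕ) (c : ℕ) (hfin : {s | s ∈ S ∧ deg s ≤ c}.Finite)
    (hdim : ∀ s ∈ S, deg s ≤ c → (M s).FG)
    {ι : Type*} [Fintype ι] (d : ι → Λ) (f : ι → F) (hd : ∀ j, d j ∈ S₀ ∧ f j ∈ M (d j))
    (hstep : ∀ s ∈ S, c < deg s → ∀ x ∈ M s, ∃ x' ∈ Mon k d f s, x = x' ∨
      ∃ j, ∃ t ∈ S, deg t < deg s ∧ d j + t = s ∧ ∃ y ∈ M t, x = x' + f j * y) :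
    FG M S := by
  classical
  -- the ring spanned by the generators and the low degrees
  choose! B hB using hdim
  let T : Set (Λ × F) := (Set.range fun j => (d j, f j)) ∪
    ⋃ s ∈ {s | s ∈ S ∧ deg s ≤ c}, (fun x => (s, x)) '' (B s : Set F)
  have hT : T.Finite := (Set.finite_range _).union
    (hfin.biUnion fun s _ => (B s).finite_toSet.image _)
  have := hT.fintype
  let d' : T → Λ := fun p => p.1.1
  let f' : T → F := fun p => p.1.2
  have hd' : ∀ p, d' p ∈ S₀ ∧ f' p ∈ M (d' p) := by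
    rintro ⟨p, ⟨j, rfl⟩ | hp⟩
    · exact hd j
    · obtain ⟨s, hs, x, hx, rfl⟩ := Set.mem_iUnion₂.1 hp
      refine ⟨hle hs.1, ?_⟩
      change x ∈ M s
      rw [← hB s hs.1 hs.2]
      exact Submodule.subset_span hx
  have hgen : ∀ j, f j ∈ Mon k d' f' (d j) := fun j =>
    gen_mem_Mon (k := k) d' f' ⟨(d j, f j), Or.inl ⟨j, rfl⟩⟩
  have key : ∀ m, ∀ s ∈ S, deg s = m → M s ≤ Mon k d' f' s := by
    intro m
    induction m using Nat.strong_induction_on with
    | _ m ih =>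
    intro s hs hm x hx
    by_cases hc : deg s ≤ c
    · rw [← hB s hs hc] at hx
      refine Submodule.span_le.2 (fun y hy => ?_) hx
      exact gen_mem_Mon (k := k) d' f'
        ⟨(s, y), Or.inr (Set.mem_iUnion₂.2 ⟨s, ⟨hs, hc⟩, y, hy, rfl⟩)⟩
    · obtain ⟨x', hx', h⟩ := hstep s hs (not_le.1 hc) x hx
      have hx2 : x' ∈ Mon k d' f' s := Mon_le_Mon hgen s hx'
      rcases h with rfl | ⟨j, t, ht, hlt, rfl, y, hy, rfl⟩
      · exact hx2
      · exact add_mem hx2 (mul_mem_Mon (hgen j) (ih _ (hm ▸ hlt) t ht rfl hy))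
  have h1 : FG (Mon k d' f') S₀ :=
    FG.of_fintype d' f' (fun p => ⟨(hd' p).1, gen_mem_Mon d' f' p⟩) fun _ _ => le_rfl
  exact (h1.mono (mult_Mon d' f' S₀) hS hle).congr fun s hs =>
    le_antisymm (hM.Mon_le hd' s) (key _ s hs rfl)


end Filtration

end Crest.Agent.X262.Cvx.Gr
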